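import Vale.Agent.P243.Fan3

open MeasureTheory Set

namespace Vale.Agent.P243

theorem sum_le_explicit {n : ℕ} (hn : 10000000 ≤ n) :
    ∑ k ∈ Finset.range n, 1 / (n : ℝ) * (tt n k ^ 2 / nn n k) ≤ 1 / 4 - 1 / 200000000 := by
  have hn0 : 0 < n := by omega
  have hn' : (10000000 : ℝ) ≤ n := by exact_mod_cast hn
  have hnpos : (0 : ℝ) < n := by linarith
  have hinv0 : (0 : ℝ) < 1 / n := by positivity
  have hinv1 : (1 : ℝ) / n ≤ 1 / 10000000 := one_div_le_one_div_of_le (by norm_num) hn'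
  have step : ∀ k ∈ Finset.range n, 1 / (n : ℝ) * (tt n k ^ 2 / nn n k) ≤
      (1 / 4 + 51 / 10000000000 + 1 / (400 * n)) * (1 / n) +
        (1 / 10000 * (Phi (et n (k + 1)) - Phi (et n k)) + 1 / 10000 * (1 / (n : ℝ)) ^ 2) := by
    intro k hk
    have hk' := Finset.mem_range.mp hk
    have h1 := mul_le_mul_of_nonneg_left (term_le hn hk') hinv0.le
    have h2 := Phi_step (et_abs hn0 hk'.le) hinv0.le (by linarith)
    rw [← et_succ] at h2
    have e1 : bb n k = (et n k + et n (k + 1)) / 400 := rfl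
    rw [aa_eq, e1] at h1
    calc 1 / (n : ℝ) * (tt n k ^ 2 / nn n k) ≤ _ := h1
      _ = (1 / 4 + 51 / 10000000000 + 1 / (400 * n)) * (1 / n) +
        1 / (n : ℝ) * (1 / 10000 * (et n k ^ 2 / 64 + et n k ^ 4 / 16) -
          ((-(1 / 4 + et n k * et n (k + 1)) / 400) ^ 2 +
          49 / 100 * ((et n k + et n (k + 1)) / 400) ^ 2) / 8) := by ring
      _ ≤ _ := by linarith
  refine le_trans (Finset.sum_le_sum step) ?_
  have hS1 : ∑ x ∈ Finset.range n, 1 / 10000 * (Phi (et n (x + 1)) - Phi (et n x)) =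
      1 / 10000 * (Phi (1 / 2) - Phi (-(1 / 2))) := by
    rw [← Finset.mul_sum, Finset.sum_range_sub (fun k => Phi (et n k)), et_last hn0, et_zero]
  rw [Finset.sum_add_distrib, Finset.sum_add_distrib, hS1, Finset.sum_const, Finset.sum_const,
    Finset.card_range, nsmul_eq_mul, nsmul_eq_mul]
  have e2 : (n : ℝ) * ((1 / 4 + 51 / 10000000000 + 1 / (400 * n)) * (1 / n)) =
      1 / 4 + 51 / 10000000000 + 1 / 400 * (1 / n) := by field_simp
  have e3 : (n : ℝ) * (1 / 10000 * (1 / (n : ℝ)) ^ 2) = 1 / 10000 * (1 / n) := by field_simp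
  rw [e2, e3]
  have e4 : Phi (1 / 2) - Phi (-(1 / 2)) ≤ -(104 / 1000000) := by
    unfold Phi; norm_num
  linarith

theorem main_explicit : ∃ (K : Set R3) (m : ℕ) (F : Fin m → Frame) (B : Fin m → Set (ℝ × ℝ)),
    IsConvexBody K ∧ (∀ i, MeasurableSet (B i)) ∧ (∀ i, area (B i) < ⊤) ∧
    K ⊆ ⋃ i, cylinder (F i) (B i) ∧
    0 < Amin K ∧ ∑ i, (area (B i)).toReal ≤ (1 / 2 - 1 / 100000000) * Amin K := by
  obtain ⟨n, hn⟩ : ∃ n : ℕ, 10000000 ≤ n := ⟨_, le_rfl⟩
  have hn0 : 0 < n := by omega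
  choose FI BI hI1 hI2 hI3 using cylI n
  choose FJ BJ hJ1 hJ2 hJ3 using cylJ n
  refine ⟨tetra, n + n, Fin.append (fun i : Fin n => FI i) (fun i : Fin n => FJ i),
    Fin.append (fun i : Fin n => BI i) (fun i : Fin n => BJ i), isConvexBody_tetra, ?_, ?_, ?_, ?_⟩
  · intro i
    refine Fin.addCases (fun j => ?_) (fun j => ?_) i
    · rw [Fin.append_left]; exact hI1 j
    · rw [Fin.append_right]; exact hJ1 j
  · intro i
    refine Fin.addCases (fun j => ?_) (fun j => ?_) i
    · rw [Fin.append_left, hI2]; exact ENNReal.ofReal_lt_top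
    · rw [Fin.append_right, hJ2]; exact ENNReal.ofReal_lt_top
  · intro x hx
    rw [mem_iUnion]
    rcases covering hn0 hx with ⟨k, hk, h⟩ | ⟨k, hk, h⟩
    · refine ⟨Fin.castAdd n ⟨k, hk⟩, ?_⟩
      rw [Fin.append_left, Fin.append_left]
      exact hI3 k x h
    · refine ⟨Fin.natAdd n ⟨k, hk⟩, ?_⟩
      rw [Fin.append_right, Fin.append_right]
      exact hJ3 k x h
  · have hA : 7 / 20 ≤ Amin tetra := by
      have : Nonempty Frame := ⟨FI 0⟩
      exact le_ciInf fun G => shadow_ge G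
    have hsum : ∑ i : Fin (n + n), (area (Fin.append (fun i : Fin n => BI i)
        (fun i : Fin n => BJ i) i)).toReal =
        7 / 10 * ∑ k ∈ Finset.range n, 1 / (n : ℝ) * (tt n k ^ 2 / nn n k) := by
      rw [Fin.sum_univ_add]
      have h1 : ∀ i : Fin n, (area (Fin.append (fun i : Fin n => BI i)
          (fun i : Fin n => BJ i) (Fin.castAdd n i))).toReal =
          (fun k : ℕ => 7 / 20 * (1 / (n : ℝ) * (tt n k ^ 2 / nn n k))) i := by
        intro i
        have := nn_pos n i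
        rw [Fin.append_left, hI2, ENNReal.toReal_ofReal (by positivity)]
      have h2 : ∀ i : Fin n, (area (Fin.append (fun i : Fin n => BI i)
          (fun i : Fin n => BJ i) (Fin.natAdd n i))).toReal =
          (fun k : ℕ => 7 / 20 * (1 / (n : ℝ) * (tt n k ^ 2 / nn n k))) i := by
        intro i
        have := nn_pos n i
        rw [Fin.append_right, hJ2, ENNReal.toReal_ofReal (by positivity)]
      rw [Finset.sum_congr rfl fun i _ => h1 i, Finset.sum_congr rfl fun i _ => h2 i,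
        Fin.sum_univ_eq_sum_range (fun k : ℕ => 7 / 20 * (1 / (n : ℝ) * (tt n k ^ 2 / nn n k))) n,
        ← Finset.mul_sum]
      ring
    rw [hsum]
    have := sum_le_explicit hn
    exact ⟨by linarith, by linarith⟩

end Vale.Agent.P243
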